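import Vale.Agent.N163.Field

open MeasureTheory Vale.Agent.P163.Model Vale.Agent.P163.Universal Vale.Agent.N163
open scoped RealInnerProductSpace

/-- The two-dimensional `O(n)` model, `n ≥ 3`, at every temperature: linear response to arbitrary
perturbations and external fields; Gaussian bound for the spin field. -/
theorem Vale.Agent.Results.P163.A0Response.result (n : ℕ) (hn : 3 ≤ n) (β : ℝ) (hβ : 0 < β) :
    -- (1) the states of the second question are Gibbs states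
    (∀ μ, IsInfiniteVolumeState n β μ → IsGibbsIn n β 0 μ) ∧
    -- (2) arbitrary boundary spins and arbitrary perturbations of the energy
    (∀ j : ℕ, 1 ≤ j → ∃ C c : ℝ, 0 < c ∧
      ∀ (Λ : Finset (ℤ × ℤ)) (η : ℤ × ℤ → Spin n) (x : ℤ × ℤ) (r : ℕ),
        (∀ y, supDist y x < r → y ∈ Λ) →
        ∀ (N : ℕ) (V : Fin N → (ℤ × ℤ → Spin n) → ℝ) (a : Fin N → ℝ) (d : Fin N → ℕ),
          (∀ i, Continuous (V i) ∧ (∀ σ, |V i σ| ≤ a i) ∧
            ∀ σ τ, (∀ y, (d i : ℤ) ≤ supDist y x → σ y = τ y) → V i σ = V i τ) →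
          ‖∫ s, (glue Λ s η x : E n)
              ∂((bcState n β Λ η).tilted fun s => ∑ i, V i (glue Λ s η))‖ ≤
            C * (rate c j r + ∑ i, a i * rate c j (d i))) ∧
    -- (3) external fields
    (∀ h, ∃ μ, IsGibbsIn n β h μ) ∧
    ∃ C : ℝ, ∀ (h : ℤ × ℤ → E n) (H : ℝ), (∀ y, ‖h y‖ ≤ H) → ∀ μ, IsGibbsIn n β h μ →
      (∀ x, ‖∫ σ, (σ x : E n) ∂μ‖ ≤ C * H) ∧
      ∀ (A : Finset (ℤ × ℤ)) (g : ℤ × ℤ → E n),
        ∫ σ, Real.exp (∑ x ∈ A, ⟪g x, (σ x : E n)⟫) ∂μ ≤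
          Real.exp (C * ∑ x ∈ A, (‖g x‖ ^ 2 + H * ‖g x‖)) :=
  ⟨fun μ hμ => ((Vale.Agent.N163.main hn hβ).1.2.choose_spec.choose_spec.2 μ hμ).1,
    (Vale.Agent.N163.main hn hβ).2⟩
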