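import Vale.Agent.N163X.Scale

open MeasureTheory Filter Topology Real Vale.Agent.N163X

/-- The two-dimensional `O(n)` model: lower bounds for the correlation, upper bounds for the mass
and for the lattice spacing of continuum limits. -/
theorem Vale.Agent.Results.P163.A0TwoSided.result :
    ∀ n : ℕ, 1 ≤ n →
      -- (1) lower bound on all finite graphs and in all states; the mass is at most `K / √β`
      (∃ c K : ℝ, 0 < c ∧ ∀ β : ℝ, 0 < β →
        (∀ (V : Type) [Fintype V] (G : SimpleGraph V) (x y : V), G.Reachable x y →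
          c * exp (-(K / √β) * G.dist x y) ≤ corr (model n β G) x y) ∧
        ∀ μ, IsState n β μ →
          (∀ x y, c * exp (-(K / √β) * len x y) ≤ corr μ x y) ∧
          ∀ C m : ℝ, (∀ x y, corr μ x y ≤ C * exp (-m * len x y)) → m ≤ K / √β) ∧
      -- (2) limits of even tori: the mass is exponentially small in `β`
      (∀ β : ℝ, 0 < β → ∀ μ, IsEvenState n β μ →
        (∀ x y, 1 - 400 * n * log (2 + len x y) / β ≤ corr μ x y) ∧
        (6400 * n ≤ β → ∀ C m : ℝ, (∀ x y, corr μ x y ≤ C * exp (-m * len x y)) →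
          m ≤ exp (-β / (1600 * n)))) ∧
      -- (3) the lattice spacing of a limit with a nonzero clustering two-point function
      ∀ (β ε c : ℕ → ℝ) (μ : ℕ → Law n (ℤ × ℤ)) (S : Fn n → Fn n → ℝ),
        (∀ k, 0 < β k ∧ 0 < ε k ∧ IsState n (β k) (μ k)) → Tendsto ε atTop (𝓝 0) →
        (∀ f g, IsTest f → IsTest g → Tendsto
          (fun k => ∫ σ, field (c k) (ε k) f σ * field (c k) (ε k) g σ ∂μ k) atTop (𝓝 (S f g))) →
        (∃ f g, IsTest f ∧ IsTest g ∧ S f g ≠ 0) →
        (∀ f g, IsTest f → IsTest g →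
          Tendsto (fun a => S f fun z => g (z - a)) (cocompact (ℝ × ℝ)) (𝓝 0)) →
        BddAbove (Set.range fun k => ε k * √(β k)) ∧ ((∀ k, IsEvenState n (β k) (μ k)) →
          BddAbove (Set.range fun k => ε k * exp (β k / (800 * n)))) := by
  refine fun n hn => ⟨?_, fun β hβ μ hμ => ?_, fun _ _ _ _ _ => scale hn⟩
  · obtain ⟨c, K, hc, _, H⟩ := lower hn
    exact ⟨c, K, hc, H⟩
  · have : NeZero n := ⟨by omega⟩
    exact ⟨aligned hμ hβ, fun h _ _ => even_mass hμ h⟩
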